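import Vale.Agent.P331.Main

/-!
P331: one sample per element against the almighty adversary, losing a factor log log rank.
-/

open MeasureTheory Vale.Agent.P331

namespace Vale.Agent.Results.P331.LogLogAlmighty

/-- Every finite matroid has a randomised online rule that, with one sample per element and against
every adversary that chooses the order from the laws, samples, values and seed, gets at least
`1 / (300 (⌊log₂ ⌈log₂ rank⌉⌋ + 4))` of the expected optimum. -/
theorem result : ∀ (E : Type) [Fintype E] [DecidableEq E] (M : Matroid E), M.E = Set.univ →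
    ∃ (ι : Type) (_ : Fintype ι) (p : ι → ℝ)
      (dec : ι → (E → ℝ) → List (E × ℝ) → E × ℝ → Bool),
      (∀ i, 0 ≤ p i) ∧ ∑ i, p i = 1 ∧
      (∀ (i : ι) (σ : Fin (Fintype.card E) ≃ E) (S V : E → ℝ),
        M.Indep (accepted (dec i S) σ V : Set E)) ∧
      (∀ (i : ι) (σ : Fin (Fintype.card E) ≃ E) (A : Finset E),
        MeasurableSet {ω : (E → ℝ) × (E → ℝ) | accepted (dec i ω.1) σ ω.2 = A}) ∧
      ∀ (D : E → Measure ℝ), (∀ e, IsProbabilityMeasure (D e)) →
        (∀ e, D e (Set.Iio 0) = 0) →
        Integrable (fun ω : (E → ℝ) × (E → ℝ) => opt M ω.2) (jointLaw D) →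
        ∀ adv : ι → (E → ℝ) × (E → ℝ) → (Fin (Fintype.card E) ≃ E),
          (∀ i σ, MeasurableSet {ω | adv i ω = σ}) →
          1 / (300 * ((Nat.log 2 (Nat.clog 2 M.eRank.toNat) : ℝ) + 4)) *
              ∫ ω, opt M ω.2 ∂jointLaw D ≤
            ∑ i, p i * ∫ ω, ∑ e ∈ accepted (dec i ω.1) (adv i ω) ω.2, ω.2 e ∂jointLaw D := by
  intro E _ _ M hE
  refine ⟨Seed (numModes M), inferInstance, seedProb _, ruleDec M, seedProb_nonneg _,
    seedProb_sum _, accepted_indep M hE, measurableSet_accepted M, ?_⟩
  intro D hprob hD hint adv hadv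
  have h := guarantee M hE D hD hint adv hadv
  have hrank : rk M Set.univ = M.eRank.toNat := by rw [rk, M.eRk_univ_eq]
  have hn : (numModes M : ℝ) + 2 = (Nat.log 2 (Nat.clog 2 M.eRank.toNat) : ℝ) + 4 := by
    simp only [numModes, depth, hrank]
    push_cast
    ring
  rw [hn] at h
  exact h

end Vale.Agent.Results.P331.LogLogAlmighty
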